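import Mathlib

/-!
# S0453: the Johnson lemma (J2) transported to a class in bijection with `D.powersetCard s`

`JohnsonTwo α` is the statement of the abstract Johnson lemma (J2) in ordered-sum form
(constant `1/2`); `class_bound` transports it along a bijection `toSet / ofSet` between a finite
set `K` of states and the `s`-subsets of `D`.
-/

set_option autoImplicit false

namespace Crest.Agent.Helper87.SW

open Finset

variable {α : Type*} [DecidableEq α]

/-- `split c d A = 1` if exactly one of `c`, `d` lies in `A`, else `0`. -/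
def split (c d : α) (A : Finset α) : ℝ := if (c ∈ A ↔ d ∈ A) then 0 else 1

/-- The abstract Johnson lemma (J2), ordered-sum form with constant `1/2`. -/
def JohnsonTwo (α : Type*) [DecidableEq α] : Prop :=
  ∀ (D : Finset α) (s : ℕ) (φ : Finset α → ℝ),
    ∑ x ∈ D.offDiag,
        (((D.powersetCard s).card : ℝ) * (∑ A ∈ D.powersetCard s, φ A * split x.1 x.2 A)
          - (∑ A ∈ D.powersetCard s, φ A) * (∑ A ∈ D.powersetCard s, split x.1 x.2 A)) ^ 2
        / (((D.powersetCard s).card : ℝ) ^ 2 * (∑ A ∈ D.powersetCard s, split x.1 x.2 A))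
      ≤ (1 / 2) * ∑ A ∈ D.powersetCard s, ∑ u ∈ A, ∑ w ∈ D \ A,
          (φ A - φ (insert w (A.erase u))) ^ 2

/-- (J2) on a class `K` in bijection with `D.powersetCard s`. -/
theorem class_bound (hJ : JohnsonTwo α) {Ω : Type*} (K : Finset Ω) (D : Finset α) (s : ℕ)
    (toSet : Ω → Finset α) (ofSet : Finset α → Ω)
    (h1 : ∀ G ∈ K, toSet G ∈ D.powersetCard s ∧ ofSet (toSet G) = G)
    (h2 : ∀ A ∈ D.powersetCard s, ofSet A ∈ K ∧ toSet (ofSet A) = A) (f : Ω → ℝ) :
    ∑ x ∈ D.offDiag,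
        ((K.card : ℝ) * (∑ G ∈ K, f G * split x.1 x.2 (toSet G))
          - (∑ G ∈ K, f G) * (∑ G ∈ K, split x.1 x.2 (toSet G))) ^ 2
        / ((K.card : ℝ) ^ 2 * (∑ G ∈ K, split x.1 x.2 (toSet G)))
      ≤ (1 / 2) * ∑ G ∈ K, ∑ u ∈ toSet G, ∑ w ∈ D \ toSet G,
          (f G - f (ofSet (insert w ((toSet G).erase u)))) ^ 2 := by
  have key : ∀ g : Ω → Finset α → ℝ,
      ∑ G ∈ K, g G (toSet G) = ∑ A ∈ D.powersetCard s, g (ofSet A) A := by
    intro g
    refine Finset.sum_nbij' toSet ofSet (fun G hG => (h1 G hG).1) (fun A hA => (h2 A hA).1)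
      (fun G hG => (h1 G hG).2) (fun A hA => (h2 A hA).2) ?_
    intro G hG
    rw [(h1 G hG).2]
  have hcard : K.card = (D.powersetCard s).card :=
    Finset.card_nbij' toSet ofSet (fun G hG => (h1 G hG).1) (fun A hA => (h2 A hA).1)
      (fun G hG => (h1 G hG).2) (fun A hA => (h2 A hA).2)
  have e1 : ∀ x : α × α, ∑ G ∈ K, f G * split x.1 x.2 (toSet G)
      = ∑ A ∈ D.powersetCard s, f (ofSet A) * split x.1 x.2 A :=
    fun x => key (fun G A => f G * split x.1 x.2 A)
  have e2 : ∑ G ∈ K, f G = ∑ A ∈ D.powersetCard s, f (ofSet A) := key (fun G _ => f G)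
  have e3 : ∀ x : α × α, ∑ G ∈ K, split x.1 x.2 (toSet G)
      = ∑ A ∈ D.powersetCard s, split x.1 x.2 A :=
    fun x => key (fun _ A => split x.1 x.2 A)
  have e4 : ∑ G ∈ K, ∑ u ∈ toSet G, ∑ w ∈ D \ toSet G,
        (f G - f (ofSet (insert w ((toSet G).erase u)))) ^ 2
      = ∑ A ∈ D.powersetCard s, ∑ u ∈ A, ∑ w ∈ D \ A,
        (f (ofSet A) - f (ofSet (insert w (A.erase u)))) ^ 2 :=
    key (fun G A => ∑ u ∈ A, ∑ w ∈ D \ A, (f G - f (ofSet (insert w (A.erase u)))) ^ 2)
  simp only [e1, e2, e3, e4, hcard]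
  exact hJ D s (fun A => f (ofSet A))

end Crest.Agent.Helper87.SW
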